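import Mathlib
import Vale.Agent.Lib.P328.RP.Defs

/-!
P328: the three-row inequality (row form) for `3 × n` contingency tables in which two of the
three row sums are at most one (the third row sum and the column sums are arbitrary).

* a row with sum zero is the zero row: its function vanishes and the inequality for the other
  two functions is `2ab ≤ a² + b²`;
* two rows with sum one: a table is a pair `(J, J')` of columns (the positions of the two units)
  with `e_J + e_J' ≤ c`; the set of these pairs is symmetric, and it is the square of the set of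
  columns with `c ≥ 1` minus the diagonal pairs at columns with `c = 1`.  The inequality then
  reduces, by an explicit identity, to `∑ s(J) s(J') ≤ 0` for functions `s` of a column with
  `∑ s(J) = 0`, which is the Cauchy-Schwarz inequality.
-/

namespace Vale.Agent.Lib.P328.RP

open Finset

namespace TwoSmall

/-! ### the three row indices -/

theorem exists_third : ∀ a b : Fin 3, a ≠ b → ∃ k, k ≠ a ∧ k ≠ b := by decide

theorem exists_others : ∀ a : Fin 3, ∃ b k, a ≠ b ∧ k ≠ a ∧ k ≠ b := by decide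

theorem univ_eq : ∀ a b k : Fin 3, a ≠ b → k ≠ a → k ≠ b →
    (univ : Finset (Fin 3)) = {a, b, k} := by decide

theorem eq_third : ∀ a b k i : Fin 3, a ≠ b → k ≠ a → k ≠ b → i ≠ a → i ≠ b → i = k := by
  decide

theorem sum_three {M : Type*} [AddCommMonoid M] {a b k : Fin 3} (hab : a ≠ b) (hka : k ≠ a)
    (hkb : k ≠ b) (F : Fin 3 → M) : ∑ i, F i = F a + F b + F k := by
  rw [univ_eq a b k hab hka hkb, Finset.sum_insert, Finset.sum_insert, Finset.sum_singleton,
    add_assoc]
  · rw [Finset.mem_singleton]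
    exact hkb.symm
  · rw [Finset.mem_insert, Finset.mem_singleton]
    rintro (h | h)
    · exact hab h
    · exact hka h.symm

section rows

variable {n : ℕ} {r : Fin 3 → ℕ} {c : Fin n → ℕ}

/-! ### a row with sum zero -/

theorem row_eq_zero {a : Fin 3} (hra : r a = 0) (x : CT 3 n r c) : x.1 a = 0 := by
  funext j
  have h := x.2.1 a
  rw [hra] at h
  exact (Finset.sum_eq_zero_iff.mp h) j (Finset.mem_univ j)

theorem rows_of_zero {a : Fin 3} (hra : r a = 0) (g : Fin 3 → (Fin n → ℕ) → ℝ)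
    (h0 : ∀ k, ∑ x : CT 3 n r c, g k (x.1 k) = 0) :
    ∑ x : CT 3 n r c, (∑ k, g k (x.1 k)) ^ 2
      ≤ 2 * ∑ x : CT 3 n r c, ∑ k, g k (x.1 k) ^ 2 := by
  obtain ⟨b, k, hab, hka, hkb⟩ := exists_others a
  have hga : ∀ x : CT 3 n r c, g a (x.1 a) = 0 := by
    intro x
    have h1 : ∀ y : CT 3 n r c, g a (y.1 a) = g a 0 := fun y => by rw [row_eq_zero hra y]
    have h2 := h0 a
    rw [Finset.sum_congr rfl (fun y _ => h1 y), Finset.sum_const, Finset.card_univ,
      nsmul_eq_mul] at h2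
    have h3 : (Fintype.card (CT 3 n r c) : ℝ) ≠ 0 := by
      have h4 : 0 < Fintype.card (CT 3 n r c) := Fintype.card_pos_iff.mpr ⟨x⟩
      exact_mod_cast h4.ne'
    rw [h1 x]
    exact (mul_eq_zero.mp h2).resolve_left h3
  rw [Finset.mul_sum]
  apply Finset.sum_le_sum
  intro x _
  rw [sum_three hab hka hkb, sum_three hab hka hkb, hga x]
  nlinarith [sq_nonneg (g b (x.1 b) - g k (x.1 k))]

/-! ### a row with sum one -/

theorem row_eq_single {a : Fin 3} (hra : r a = 1) (x : CT 3 n r c) :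
    ∃ J : Fin n, x.1 a = Pi.single J 1 := by
  have h := x.2.1 a
  rw [hra] at h
  have hex : ∃ J, x.1 a J ≠ 0 := by
    by_contra hcon
    have hz : ∀ j, x.1 a j = 0 := fun j => by
      by_contra hj
      exact hcon ⟨j, hj⟩
    rw [Finset.sum_eq_zero (fun j _ => hz j)] at h
    exact absurd h (by norm_num)
  obtain ⟨J, hJ⟩ := hex
  refine ⟨J, ?_⟩
  have h2 : x.1 a J + ∑ j ∈ univ.erase J, x.1 a j = 1 := by
    rw [Finset.add_sum_erase univ (fun j => x.1 a j) (Finset.mem_univ J)]
    exact h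
  have h3 : x.1 a J = 1 := by omega
  have h4 : ∑ j ∈ univ.erase J, x.1 a j = 0 := by omega
  funext j
  by_cases hj : j = J
  · rw [hj, Pi.single_eq_same]
    exact h3
  · rw [Pi.single_eq_of_ne hj]
    exact (Finset.sum_eq_zero_iff.mp h4) j (Finset.mem_erase.mpr ⟨hj, Finset.mem_univ j⟩)

theorem single_inj {J J' : Fin n} (h : (Pi.single J 1 : Fin n → ℕ) = Pi.single J' 1) :
    J = J' := by
  have h1 := congrFun h J
  rw [Pi.single_eq_same, Pi.single_apply] at h1
  by_contra hne
  rw [if_neg hne] at h1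
  exact one_ne_zero h1

theorem sum_single (J : Fin n) : ∑ j, (Pi.single J 1 : Fin n → ℕ) j = 1 := by
  rw [Finset.sum_pi_single']
  simp

/-! ### the admissible pairs of columns -/

/-- The pairs `(J, J')` of columns such that a unit in column `J` and a unit in column `J'`
fit under the column sums `c`. -/
def allowed (c : Fin n → ℕ) : Finset (Fin n × Fin n) :=
  univ.filter (fun p =>
    ∀ j, (Pi.single p.1 1 : Fin n → ℕ) j + (Pi.single p.2 1 : Fin n → ℕ) j ≤ c j)

theorem mem_allowed (p : Fin n × Fin n) :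
    p ∈ allowed c
      ↔ ∀ j, (Pi.single p.1 1 : Fin n → ℕ) j + (Pi.single p.2 1 : Fin n → ℕ) j ≤ c j := by
  unfold allowed
  rw [mem_filter]
  exact ⟨fun h => h.2, fun h => ⟨mem_univ _, h⟩⟩

theorem mem_allowed_iff (p : Fin n × Fin n) :
    p ∈ allowed c ↔ 1 ≤ c p.1 ∧ 1 ≤ c p.2 ∧ (p.1 = p.2 → 2 ≤ c p.1) := by
  rw [mem_allowed]
  constructor
  · intro h
    refine ⟨?_, ?_, ?_⟩
    · have h1 := h p.1
      rw [Pi.single_eq_same] at h1
      omega
    · have h1 := h p.2
      rw [Pi.single_eq_same (i := p.2)] at h1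
      omega
    · intro heq
      have h1 := h p.1
      rw [Pi.single_eq_same, Pi.single_apply, if_pos heq] at h1
      omega
  · rintro ⟨h1, h2, h3⟩ j
    rw [Pi.single_apply, Pi.single_apply]
    by_cases hj1 : j = p.1
    · by_cases hj2 : j = p.2
      · rw [if_pos hj1, if_pos hj2, hj1]
        exact h3 (hj1.symm.trans hj2)
      · rw [if_pos hj1, if_neg hj2, hj1]
        omega
    · by_cases hj2 : j = p.2
      · rw [if_neg hj1, if_pos hj2, hj2]
        omega
      · rw [if_neg hj1, if_neg hj2]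
        omega

theorem swap_mem_allowed (p : Fin n × Fin n) : (p.2, p.1) ∈ allowed c ↔ p ∈ allowed c := by
  rw [mem_allowed_iff, mem_allowed_iff]
  constructor
  · rintro ⟨h1, h2, h3⟩
    refine ⟨h2, h1, fun heq => ?_⟩
    rw [heq]
    exact h3 heq.symm
  · rintro ⟨h1, h2, h3⟩
    refine ⟨h2, h1, fun heq => ?_⟩
    have heq' : p.2 = p.1 := heq
    rw [heq']
    exact h3 heq'.symm

theorem allowed_eq (c : Fin n → ℕ) :
    allowed c = ((univ.filter (fun j => 1 ≤ c j)) ×ˢ (univ.filter (fun j => 1 ≤ c j))) \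
      ((univ.filter (fun j => c j = 1)).image (fun j => (j, j))) := by
  ext p
  rw [mem_allowed_iff, mem_sdiff, mem_product, mem_filter, mem_filter, mem_image]
  simp only [mem_univ, true_and, mem_filter]
  constructor
  · rintro ⟨h1, h2, h3⟩
    refine ⟨⟨h1, h2⟩, ?_⟩
    rintro ⟨j, hj, rfl⟩
    have h4 : 2 ≤ c j := h3 rfl
    omega
  · rintro ⟨⟨h1, h2⟩, h3⟩
    refine ⟨h1, h2, fun heq => ?_⟩
    by_contra hlt
    apply h3
    refine ⟨p.1, by omega, ?_⟩
    exact Prod.ext rfl heq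

theorem sum_allowed (c : Fin n → ℕ) (F : Fin n × Fin n → ℝ) :
    ∑ p ∈ allowed c, F p
      = ∑ J ∈ univ.filter (fun j => 1 ≤ c j), ∑ J' ∈ univ.filter (fun j => 1 ≤ c j), F (J, J')
        - ∑ J ∈ univ.filter (fun j => c j = 1), F (J, J) := by
  have hsub : (univ.filter (fun j => c j = 1)).image (fun j => (j, j))
      ⊆ (univ.filter (fun j => 1 ≤ c j)) ×ˢ (univ.filter (fun j => 1 ≤ c j)) := by
    intro p hp
    obtain ⟨j, hj, rfl⟩ := mem_image.mp hp
    have hj1 : c j = 1 := (mem_filter.mp hj).2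
    rw [mem_product]
    simp only [mem_filter, mem_univ, true_and]
    exact ⟨by omega, by omega⟩
  have h := Finset.sum_sdiff hsub (f := F)
  rw [Finset.sum_product, Finset.sum_image (fun x _ y _ hxy => congrArg Prod.fst hxy)] at h
  rw [allowed_eq]
  linarith

/-- Negative correlation of the two unit positions: for a function `s` of a column whose sum
over the admissible pairs (first position) vanishes, the sum of `s J * s J'` over the
admissible pairs is not positive. -/
theorem corr_nonpos (c : Fin n → ℕ) (s : Fin n → ℝ) (hs : ∑ p ∈ allowed c, s p.1 = 0) :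
    ∑ p ∈ allowed c, s p.1 * s p.2 ≤ 0 := by
  rw [sum_allowed] at hs ⊢
  set P : Finset (Fin n) := univ.filter (fun j => 1 ≤ c j) with hP
  set P1 : Finset (Fin n) := univ.filter (fun j => c j = 1) with hP1
  have e1 : ∑ J ∈ P, ∑ _J' ∈ P, s J = (P.card : ℝ) * ∑ J ∈ P, s J := by
    rw [Finset.mul_sum]
    refine Finset.sum_congr rfl (fun J _ => ?_)
    rw [Finset.sum_const, nsmul_eq_mul]
  have e2 : ∑ J ∈ P, ∑ J' ∈ P, s J * s J' = (∑ J ∈ P, s J) ^ 2 := by
    rw [sq, Finset.sum_mul_sum]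
  have e3 : ∑ J ∈ P1, s J * s J = ∑ J ∈ P1, s J ^ 2 :=
    Finset.sum_congr rfl (fun J _ => (sq (s J)).symm)
  rw [e1] at hs
  rw [e2, e3]
  have hcs : (∑ J ∈ P1, s J) ^ 2 ≤ (P1.card : ℝ) * ∑ J ∈ P1, s J ^ 2 :=
    sq_sum_le_card_mul_sum_sq
  have hQ : 0 ≤ ∑ J ∈ P1, s J ^ 2 := Finset.sum_nonneg (fun J _ => sq_nonneg (s J))
  have hsub : P1 ⊆ P := by
    intro j hj
    have hj1 : c j = 1 := (mem_filter.mp hj).2
    exact mem_filter.mpr ⟨mem_univ j, by omega⟩
  have hcard : (P1.card : ℝ) ≤ (P.card : ℝ) := by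
    exact_mod_cast Finset.card_le_card hsub
  set U : ℝ := ∑ J ∈ P, s J with hU
  set U1 : ℝ := ∑ J ∈ P1, s J with hU1
  set Q : ℝ := ∑ J ∈ P1, s J ^ 2 with hQdef
  have hUU : (P.card : ℝ) * U = U1 := by linarith
  by_cases hp : P.card = 0
  · have hPe : P = ∅ := Finset.card_eq_zero.mp hp
    have hU0 : U = 0 := by rw [hU, hPe, Finset.sum_empty]
    rw [hU0]
    nlinarith
  · have hp1 : (1 : ℝ) ≤ (P.card : ℝ) := by
      exact_mod_cast Nat.one_le_iff_ne_zero.mpr hp
    have h1 : (P.card : ℝ) ^ 2 * U ^ 2 ≤ (P.card : ℝ) ^ 2 * Q := by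
      have h2 : (P.card : ℝ) ^ 2 * U ^ 2 = U1 ^ 2 := by
        rw [← hUU]
        ring
      have h3 : (P1.card : ℝ) * Q ≤ (P.card : ℝ) * Q := mul_le_mul_of_nonneg_right hcard hQ
      have h4 : (P.card : ℝ) * Q ≤ (P.card : ℝ) ^ 2 * Q := by
        apply mul_le_mul_of_nonneg_right _ hQ
        nlinarith
      linarith
    have h5 : U ^ 2 ≤ Q := le_of_mul_le_mul_left h1 (by positivity)
    linarith

/-- The inequality for two unit rows, written on the admissible pairs of columns. -/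
theorem pairs_ineq (c : Fin n → ℕ) (α β : Fin n → ℝ) (G : Fin n × Fin n → ℝ)
    (hG : ∀ p : Fin n × Fin n, G (p.2, p.1) = G p)
    (hα : ∑ p ∈ allowed c, α p.1 = 0) (hβ : ∑ p ∈ allowed c, β p.2 = 0) :
    ∑ p ∈ allowed c, (α p.1 + β p.2 + G p) ^ 2
      ≤ 2 * ∑ p ∈ allowed c, (α p.1 ^ 2 + β p.2 ^ 2 + G p ^ 2) := by
  have hswap : ∀ F : Fin n × Fin n → ℝ,
      ∑ p ∈ allowed c, F (p.2, p.1) = ∑ p ∈ allowed c, F p := by
    intro F
    refine Finset.sum_nbij' (fun p => (p.2, p.1)) (fun p => (p.2, p.1)) ?_ ?_ ?_ ?_ ?_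
    · intro p hp
      exact (swap_mem_allowed p).mpr hp
    · intro p hp
      exact (swap_mem_allowed p).mpr hp
    · intro p _
      rfl
    · intro p _
      rfl
    · intro p _
      rfl
  set s : Fin n → ℝ := fun j => (α j + β j) / 2 with hs
  have hs0 : ∑ p ∈ allowed c, s p.1 = 0 := by
    have h1 : ∑ p ∈ allowed c, β p.1 = 0 := by
      rw [← hβ]
      exact hswap (fun p => β p.2)
    have h2 : ∑ p ∈ allowed c, s p.1 = (∑ p ∈ allowed c, α p.1 + ∑ p ∈ allowed c, β p.1) / 2 := by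
      rw [← Finset.sum_add_distrib, Finset.sum_div]
    rw [h2, hα, h1]
    norm_num
  have hkl := corr_nonpos c s hs0
  have key : ∀ p : Fin n × Fin n,
      (2 * (α p.1 ^ 2 + β p.2 ^ 2 + G p ^ 2) - (α p.1 + β p.2 + G p) ^ 2)
        + (2 * (α p.2 ^ 2 + β p.1 ^ 2 + G p ^ 2) - (α p.2 + β p.1 + G p) ^ 2)
      = -8 * (s p.1 * s p.2) + (2 * ((α p.1 - β p.1) / 2 + (α p.2 - β p.2) / 2) ^ 2
        + 2 * (G p - s p.1 - s p.2) ^ 2) := by
    intro p
    simp only [hs]
    ring
  have hsum : ∑ p ∈ allowed c,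
        (2 * (α p.2 ^ 2 + β p.1 ^ 2 + G p ^ 2) - (α p.2 + β p.1 + G p) ^ 2)
      = ∑ p ∈ allowed c,
        (2 * (α p.1 ^ 2 + β p.2 ^ 2 + G p ^ 2) - (α p.1 + β p.2 + G p) ^ 2) := by
    have h1 := hswap
      (fun p => 2 * (α p.1 ^ 2 + β p.2 ^ 2 + G p ^ 2) - (α p.1 + β p.2 + G p) ^ 2)
    simp only [hG] at h1
    exact h1
  have h2 : 2 * ∑ p ∈ allowed c,
        (2 * (α p.1 ^ 2 + β p.2 ^ 2 + G p ^ 2) - (α p.1 + β p.2 + G p) ^ 2)
      = -8 * ∑ p ∈ allowed c, s p.1 * s p.2
        + ∑ p ∈ allowed c, (2 * ((α p.1 - β p.1) / 2 + (α p.2 - β p.2) / 2) ^ 2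
          + 2 * (G p - s p.1 - s p.2) ^ 2) := by
    rw [two_mul]
    nth_rewrite 2 [← hsum]
    rw [← Finset.sum_add_distrib, Finset.mul_sum, ← Finset.sum_add_distrib]
    exact Finset.sum_congr rfl (fun p _ => key p)
  have h3 : 0 ≤ ∑ p ∈ allowed c, (2 * ((α p.1 - β p.1) / 2 + (α p.2 - β p.2) / 2) ^ 2
      + 2 * (G p - s p.1 - s p.2) ^ 2) :=
    Finset.sum_nonneg (fun p _ => by positivity)
  have h4 : ∑ p ∈ allowed c,
        (2 * (α p.1 ^ 2 + β p.2 ^ 2 + G p ^ 2) - (α p.1 + β p.2 + G p) ^ 2)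
      = 2 * ∑ p ∈ allowed c, (α p.1 ^ 2 + β p.2 ^ 2 + G p ^ 2)
        - ∑ p ∈ allowed c, (α p.1 + β p.2 + G p) ^ 2 := by
    rw [Finset.sum_sub_distrib, Finset.mul_sum]
  linarith

/-! ### tables with two unit rows -/

/-- The rest of the column sums after a unit in column `p.1` and a unit in column `p.2`. -/
def rest (c : Fin n → ℕ) (p : Fin n × Fin n) : Fin n → ℕ :=
  fun j => c j - (Pi.single p.1 1 : Fin n → ℕ) j - (Pi.single p.2 1 : Fin n → ℕ) j

theorem rest_swap (c : Fin n → ℕ) (p : Fin n × Fin n) : rest c (p.2, p.1) = rest c p := by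
  funext j
  show c j - (Pi.single p.2 1 : Fin n → ℕ) j - (Pi.single p.1 1 : Fin n → ℕ) j
    = c j - (Pi.single p.1 1 : Fin n → ℕ) j - (Pi.single p.2 1 : Fin n → ℕ) j
  omega

/-- The array with the unit rows `a`, `b` at the columns `p.1`, `p.2` and the rest of the
column sums in every other row. -/
def tblFun (a b : Fin 3) (c : Fin n → ℕ) (p : Fin n × Fin n) : Fin 3 → Fin n → ℕ :=
  fun i => if i = a then Pi.single p.1 1 else if i = b then Pi.single p.2 1 else rest c p

theorem tblFun_a (a b : Fin 3) (c : Fin n → ℕ) (p : Fin n × Fin n) :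
    tblFun a b c p a = Pi.single p.1 1 := by
  unfold tblFun
  rw [if_pos rfl]

theorem tblFun_b {a b : Fin 3} (hab : a ≠ b) (c : Fin n → ℕ) (p : Fin n × Fin n) :
    tblFun a b c p b = Pi.single p.2 1 := by
  unfold tblFun
  rw [if_neg hab.symm, if_pos rfl]

theorem tblFun_k {a b k : Fin 3} (hka : k ≠ a) (hkb : k ≠ b) (c : Fin n → ℕ)
    (p : Fin n × Fin n) : tblFun a b c p k = rest c p := by
  unfold tblFun
  rw [if_neg hka, if_neg hkb]

theorem rest_add {p : Fin n × Fin n} (hp : p ∈ allowed c) (j : Fin n) :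
    (Pi.single p.1 1 : Fin n → ℕ) j + (Pi.single p.2 1 : Fin n → ℕ) j + rest c p j = c j := by
  have h2 := (mem_allowed p).mp hp j
  show (Pi.single p.1 1 : Fin n → ℕ) j + (Pi.single p.2 1 : Fin n → ℕ) j
    + (c j - (Pi.single p.1 1 : Fin n → ℕ) j - (Pi.single p.2 1 : Fin n → ℕ) j) = c j
  omega

theorem tblFun_rows {a b k : Fin 3} (hab : a ≠ b) (hka : k ≠ a) (hkb : k ≠ b)
    (hra : r a = 1) (hrb : r b = 1) (hc : ∑ j, c j = r k + 2)
    {p : Fin n × Fin n} (hp : p ∈ allowed c) (i : Fin 3) :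
    ∑ j, tblFun a b c p i j = r i := by
  by_cases hia : i = a
  · rw [hia, tblFun_a, sum_single, hra]
  · by_cases hib : i = b
    · rw [hib, tblFun_b hab, sum_single, hrb]
    · have hik : i = k := eq_third a b k i hab hka hkb hia hib
      rw [hik, tblFun_k hka hkb]
      have h1 : ∑ j, c j = ∑ j, (Pi.single p.1 1 : Fin n → ℕ) j
          + ∑ j, (Pi.single p.2 1 : Fin n → ℕ) j + ∑ j, rest c p j := by
        rw [← Finset.sum_add_distrib, ← Finset.sum_add_distrib]
        exact Finset.sum_congr rfl (fun j _ => (rest_add hp j).symm)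
      rw [sum_single, sum_single] at h1
      omega

theorem tblFun_cols {a b k : Fin 3} (hab : a ≠ b) (hka : k ≠ a) (hkb : k ≠ b)
    {p : Fin n × Fin n} (hp : p ∈ allowed c) (j : Fin n) :
    ∑ i, tblFun a b c p i j = c j := by
  rw [sum_three hab hka hkb, tblFun_a, tblFun_b hab, tblFun_k hka hkb]
  exact rest_add hp j

/-- The table with the unit rows `a`, `b` at the admissible pair `p` of columns. -/
def tbl {a b k : Fin 3} (hab : a ≠ b) (hka : k ≠ a) (hkb : k ≠ b) (hra : r a = 1)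
    (hrb : r b = 1) (hc : ∑ j, c j = r k + 2) (p : Fin n × Fin n) (hp : p ∈ allowed c) :
    CT 3 n r c :=
  ⟨tblFun a b c p, fun i => tblFun_rows hab hka hkb hra hrb hc hp i,
    fun j => tblFun_cols hab hka hkb hp j⟩

/-- Sums over the tables with two unit rows `a`, `b` are sums over the admissible pairs of
columns. -/
theorem sum_param {a b k : Fin 3} (hab : a ≠ b) (hka : k ≠ a) (hkb : k ≠ b) (hra : r a = 1)
    (hrb : r b = 1) (hc : ∑ j, c j = r k + 2)
    (F : (Fin n → ℕ) → (Fin n → ℕ) → (Fin n → ℕ) → ℝ) :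
    ∑ x : CT 3 n r c, F (x.1 a) (x.1 b) (x.1 k)
      = ∑ p ∈ allowed c, F (Pi.single p.1 1) (Pi.single p.2 1) (rest c p) := by
  symm
  refine Finset.sum_bij (fun p hp => tbl hab hka hkb hra hrb hc p hp) (fun _ _ => mem_univ _)
    ?_ ?_ ?_
  · intro p hp p' hp' h
    have h1 : tblFun a b c p = tblFun a b c p' := congrArg Subtype.val h
    have ha1 := congrFun h1 a
    have hb1 := congrFun h1 b
    rw [tblFun_a, tblFun_a] at ha1
    rw [tblFun_b hab, tblFun_b hab] at hb1
    exact Prod.ext (single_inj ha1) (single_inj hb1)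
  · intro x _
    obtain ⟨J, hJ⟩ := row_eq_single hra x
    obtain ⟨J', hJ'⟩ := row_eq_single hrb x
    have hcol : ∀ j, x.1 a j + x.1 b j + x.1 k j = c j := by
      intro j
      rw [← x.2.2 j, sum_three hab hka hkb]
    have hp : (J, J') ∈ allowed c := by
      rw [mem_allowed]
      intro j
      have h1 := hcol j
      rw [hJ, hJ'] at h1
      show (Pi.single J 1 : Fin n → ℕ) j + (Pi.single J' 1 : Fin n → ℕ) j ≤ c j
      omega
    refine ⟨(J, J'), hp, ?_⟩
    apply Subtype.ext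
    funext i
    show tblFun a b c (J, J') i = x.1 i
    by_cases hia : i = a
    · rw [hia, tblFun_a, hJ]
    · by_cases hib : i = b
      · rw [hib, tblFun_b hab, hJ']
      · have hik : i = k := eq_third a b k i hab hka hkb hia hib
        rw [hik, tblFun_k hka hkb]
        funext j
        have h1 := hcol j
        rw [hJ, hJ'] at h1
        show c j - (Pi.single J 1 : Fin n → ℕ) j - (Pi.single J' 1 : Fin n → ℕ) j = x.1 k j
        omega
  · intro p hp
    show F (Pi.single p.1 1) (Pi.single p.2 1) (rest c p)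
      = F (tblFun a b c p a) (tblFun a b c p b) (tblFun a b c p k)
    rw [tblFun_a, tblFun_b hab, tblFun_k hka hkb]

/-- The three-row inequality for tables with two rows of sum one. -/
theorem rows_of_two_units {a b : Fin 3} (hab : a ≠ b) (hra : r a = 1) (hrb : r b = 1)
    (g : Fin 3 → (Fin n → ℕ) → ℝ) (h0 : ∀ k, ∑ x : CT 3 n r c, g k (x.1 k) = 0) :
    ∑ x : CT 3 n r c, (∑ k, g k (x.1 k)) ^ 2
      ≤ 2 * ∑ x : CT 3 n r c, ∑ k, g k (x.1 k) ^ 2 := by
  obtain ⟨k, hka, hkb⟩ := exists_third a b hab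
  rcases isEmpty_or_nonempty (CT 3 n r c) with hE | ⟨⟨x0⟩⟩
  · rw [Fintype.sum_empty, Fintype.sum_empty]
    norm_num
  · have hc : ∑ j, c j = r k + 2 := by
      have h1 : ∑ j, c j = ∑ j, ∑ i, x0.1 i j :=
        Finset.sum_congr rfl (fun j _ => (x0.2.2 j).symm)
      rw [h1, Finset.sum_comm, Finset.sum_congr rfl (fun i _ => x0.2.1 i),
        sum_three hab hka hkb, hra, hrb]
      omega
    have e1 : ∑ x : CT 3 n r c, (∑ i, g i (x.1 i)) ^ 2
        = ∑ p ∈ allowed c,
            (g a (Pi.single p.1 1) + g b (Pi.single p.2 1) + g k (rest c p)) ^ 2 := by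
      rw [← sum_param hab hka hkb hra hrb hc (fun ra rb rk => (g a ra + g b rb + g k rk) ^ 2)]
      exact Finset.sum_congr rfl (fun x _ => by rw [sum_three hab hka hkb])
    have e2 : ∑ x : CT 3 n r c, ∑ i, g i (x.1 i) ^ 2
        = ∑ p ∈ allowed c,
            (g a (Pi.single p.1 1) ^ 2 + g b (Pi.single p.2 1) ^ 2 + g k (rest c p) ^ 2) := by
      rw [← sum_param hab hka hkb hra hrb hc
        (fun ra rb rk => g a ra ^ 2 + g b rb ^ 2 + g k rk ^ 2)]
      exact Finset.sum_congr rfl (fun x _ => by rw [sum_three hab hka hkb])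
    have e3 : ∑ p ∈ allowed c, g a (Pi.single p.1 1) = 0 := by
      rw [← h0 a, sum_param hab hka hkb hra hrb hc (fun ra _ _ => g a ra)]
    have e4 : ∑ p ∈ allowed c, g b (Pi.single p.2 1) = 0 := by
      rw [← h0 b, sum_param hab hka hkb hra hrb hc (fun _ rb _ => g b rb)]
    rw [e1, e2]
    exact pairs_ineq c (fun J => g a (Pi.single J 1)) (fun J => g b (Pi.single J 1))
      (fun p => g k (rest c p))
      (fun p => by
        show g k (rest c (p.2, p.1)) = g k (rest c p)
        rw [rest_swap])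
      e3 e4

end rows

end TwoSmall

open TwoSmall in
/-- **Two small rows.**  The three-row inequality, in the row form, holds for the `3 × n`
tables with row sums `r` and column sums `c` whenever two of the three row sums are at most
one (the third row sum and the column sums are arbitrary). -/
theorem threeRow_rows_of_two_small {n : ℕ} (r : Fin 3 → ℕ) (c : Fin n → ℕ) (a b : Fin 3)
    (hab : a ≠ b) (ha : r a ≤ 1) (hb : r b ≤ 1) (g : Fin 3 → (Fin n → ℕ) → ℝ)
    (h0 : ∀ k, ∑ x : CT 3 n r c, g k (x.1 k) = 0) :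
    ∑ x : CT 3 n r c, (∑ k, g k (x.1 k)) ^ 2
      ≤ 2 * ∑ x : CT 3 n r c, ∑ k, g k (x.1 k) ^ 2 := by
  rcases Nat.lt_or_ge (r a) 1 with h | h
  · have hra : r a = 0 := by omega
    exact rows_of_zero hra g h0
  · rcases Nat.lt_or_ge (r b) 1 with h' | h'
    · have hrb : r b = 0 := by omega
      exact rows_of_zero hrb g h0
    · have hra : r a = 1 := by omega
      have hrb : r b = 1 := by omega
      exact rows_of_two_units hab hra hrb g h0

end Vale.Agent.Lib.P328.RP
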