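import Mathlib
import Vale.Agent.Lib.P328.helper12.TwoSmallRows
import Vale.Agent.Lib.P328.RP.Restricted
import Vale.Agent.Lib.P328.RP.Rows
import Vale.Agent.Lib.P328.RP.Mixing22

/-!
P328: mixing of the heat bath on two-by-two blocks when the three-row inequality is known for
the triples of rows that contain at least two rows with sum at least two; in particular,
unconditionally, for all margins with at most one row sum above one.
-/

namespace Vale.Agent.Lib.P328.RP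

open Finset

/-- Among three distinct rows, two avoid a given row. -/
theorem exists_two_ne {m : ℕ} (φ : Fin 3 ↪ Fin m) (i0 : Fin m) :
    ∃ a b : Fin 3, a ≠ b ∧ φ a ≠ i0 ∧ φ b ≠ i0 := by
  by_cases h0 : φ 0 = i0
  · refine ⟨1, 2, by decide, ?_, ?_⟩
    · intro h1
      exact absurd (φ.injective (h1.trans h0.symm)) (by decide)
    · intro h2
      exact absurd (φ.injective (h2.trans h0.symm)) (by decide)
  · by_cases h1 : φ 1 = i0
    · refine ⟨0, 2, by decide, h0, ?_⟩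
      intro h2
      exact absurd (φ.injective (h2.trans h1.symm)) (by decide)
    · exact ⟨0, 1, by decide, h0, h1⟩

/-- The mixing bound for the heat bath on two-by-two blocks of the tables with row sums `r`,
given the three-row inequality for the row sums of every triple of rows in which fewer than two
row sums are at most one. -/
theorem mixing22_of_threeRow_fat {m n : ℕ} (hm : 2 ≤ m) (hn : 2 ≤ n) (r : Fin m → ℕ)
    (hV3 : ∀ φ : Fin 3 ↪ Fin m,
      (∃ a b : Fin 3, a ≠ b ∧ r (φ a) ≤ 1 ∧ r (φ b) ≤ 1) ∨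
      ∀ (c' : Fin n → ℕ) (g : Fin 3 → (Fin n → ℕ) → ℝ),
        (∀ k, ∑ x : CT 3 n (r ∘ φ) c', g k (x.1 k) = 0) →
        ∑ x : CT 3 n (r ∘ φ) c', (∑ k, g k (x.1 k)) ^ 2
          ≤ 2 * ∑ x : CT 3 n (r ∘ φ) c', ∑ k, g k (x.1 k) ^ 2)
    (c : Fin n → ℕ) (x : CT m n r c) (ε : ℝ) (hε : 0 < ε) (hε1 : ε ≤ 1) (t : ℕ)
    (ht : (m : ℝ) ^ 2 * (n : ℝ) ^ 2 *
      (m * n * Real.log (((∑ i, r i : ℕ) : ℝ) + 1) + Real.log (1 / ε)) ≤ t) :
    (1 / 2) * ∑ y, |(heatBath22 m n r c ^ t) x y - 1 / (Fintype.card (CT m n r c) : ℝ)|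
      ≤ ε := by
  have h3 : ∀ (φ : Fin 3 ↪ Fin m) (c' : Fin n → ℕ) (g : CT 3 n (r ∘ φ) c' → ℝ),
      ∑ q ∈ (univ : Finset (Fin 3)).powersetCard 2, Vale.Agent.Lib.P335.Bip.ip g (R q g)
        ≤ 2 * Vale.Agent.Lib.P335.Bip.ip g g + Vale.Agent.Lib.P335.Bip.ip g (R univ g) := by
    intro φ c' g
    apply threeRow_of_rows (r ∘ φ) c'
    rcases hV3 φ with ⟨a, b, hab, ha, hb⟩ | h
    · exact fun g' hg' => threeRow_rows_of_two_small (r ∘ φ) c' a b hab ha hb g' hg'
    · exact h c'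
  refine mixing22_of_gap hm hn r c 1 one_pos le_rfl (gap22_of_threeRow_on r h3 c) x ε hε hε1 t ?_
  rw [div_one]
  exact ht

/-- **One arbitrary row, all other row sums at most one.**  For such margins the heat bath on
two-by-two blocks mixes within the stated number of steps, with no further hypothesis. -/
theorem mixing22_one_fat_row {m n : ℕ} (hm : 2 ≤ m) (hn : 2 ≤ n) (r : Fin m → ℕ)
    (i0 : Fin m) (hr : ∀ i, i ≠ i0 → r i ≤ 1)
    (c : Fin n → ℕ) (x : CT m n r c) (ε : ℝ) (hε : 0 < ε) (hε1 : ε ≤ 1) (t : ℕ)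
    (ht : (m : ℝ) ^ 2 * (n : ℝ) ^ 2 *
      (m * n * Real.log (((∑ i, r i : ℕ) : ℝ) + 1) + Real.log (1 / ε)) ≤ t) :
    (1 / 2) * ∑ y, |(heatBath22 m n r c ^ t) x y - 1 / (Fintype.card (CT m n r c) : ℝ)|
      ≤ ε := by
  refine mixing22_of_threeRow_fat hm hn r (fun φ => Or.inl ?_) c x ε hε hε1 t ht
  obtain ⟨a, b, hab, ha, hb⟩ := exists_two_ne φ i0
  exact ⟨a, b, hab, hr _ ha, hr _ hb⟩

end Vale.Agent.Lib.P328.RP
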