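import Vale.Agent.Lib.P328.helper12.SmallRows
import Vale.Agent.Lib.P328.helper30.ColReduce
import Vale.Agent.Lib.P328.helper26.SmallAll
import Vale.Agent.Lib.P328.helper14.TransposeChain
import Vale.Agent.Lib.P328.helper14.FamilyHubBig
import Vale.Agent.Lib.P328.RP.BigRows
import Vale.Agent.Lib.P328.RP.BigRowsCT
import Vale.Agent.Lib.P328.helper74.TwoFatUnit

/-!
P328: the three families of row margins for which the mixing bound of the heat bath on
two-by-two blocks of contingency tables is proved with no unproved hypothesis, under one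
common step count, and the same for the transposed tables.

* `mixing22_row_families` : every row sum at most two; or all row sums except those of two
  rows at most one; or a column `j0` such that every row sum is at most one or at least the
  sum of the other column sums.  Step count
  `4 m ^ 3 n ^ 3 (m n log (N + 1) + log (1 / ε))`.
* `mixing22_families` : the same conditions on the rows or on the columns, same step count.
-/

namespace Vale.Agent.Lib.P328.RP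

open Finset

/-- The factor `m n log (N + 1) + log (1 / ε)` of the step counts is nonnegative. -/
theorem stepFactor_nonneg (m n N : ℕ) (ε : ℝ) (hε : 0 < ε) (hε1 : ε ≤ 1) :
    0 ≤ (m : ℝ) * n * Real.log ((N : ℝ) + 1) + Real.log (1 / ε) := by
  have h1 : 0 ≤ Real.log ((N : ℝ) + 1) := by
    apply Real.log_nonneg
    have : (0 : ℝ) ≤ (N : ℝ) := Nat.cast_nonneg N
    linarith
  have h2 : 0 ≤ Real.log (1 / ε) := by
    apply Real.log_nonneg
    rw [le_div_iff₀ hε]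
    linarith
  have hm : (0 : ℝ) ≤ (m : ℝ) := Nat.cast_nonneg m
  have hn : (0 : ℝ) ≤ (n : ℝ) := Nat.cast_nonneg n
  positivity

/-- **The three row families.** -/
theorem mixing22_row_families (m n : ℕ) (hm : 2 ≤ m) (hn : 2 ≤ n) (r : Fin m → ℕ)
    (c : Fin n → ℕ)
    (hfam : (∀ i, r i ≤ 2) ∨ (∃ i0 i1 : Fin m, ∀ i, i ≠ i0 → i ≠ i1 → r i ≤ 1) ∨
      (∃ j0 : Fin n, ∀ i, r i ≤ 1 ∨ ∑ j ∈ univ.erase j0, c j ≤ r i))
    (x : CT m n r c) (ε : ℝ) (hε : 0 < ε) (hε1 : ε ≤ 1) (t : ℕ)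
    (ht : 4 * (m : ℝ) ^ 3 * (n : ℝ) ^ 3 *
      (m * n * Real.log (((∑ i, r i : ℕ) : ℝ) + 1) + Real.log (1 / ε)) ≤ t) :
    (1 / 2) * ∑ y, |(heatBath22 m n r c ^ t) x y - 1 / (Fintype.card (CT m n r c) : ℝ)| ≤ ε := by
  have hF := stepFactor_nonneg m n (∑ i, r i) ε hε hε1
  have hm2 : (2 : ℝ) ≤ (m : ℝ) := by exact_mod_cast hm
  have hn2 : (2 : ℝ) ≤ (n : ℝ) := by exact_mod_cast hn
  have ht' : (m : ℝ) ^ 2 * (n : ℝ) ^ 2 *
      (m * n * Real.log (((∑ i, r i : ℕ) : ℝ) + 1) + Real.log (1 / ε)) ≤ t := by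
    refine le_trans ?_ ht
    apply mul_le_mul_of_nonneg_right _ hF
    have ha : (m : ℝ) ^ 2 ≤ (m : ℝ) ^ 3 := by nlinarith [sq_nonneg (m : ℝ)]
    have hb : (n : ℝ) ^ 2 ≤ (n : ℝ) ^ 3 := by nlinarith [sq_nonneg (n : ℝ)]
    have h1 : (m : ℝ) ^ 2 * (n : ℝ) ^ 2 ≤ (m : ℝ) ^ 3 * (n : ℝ) ^ 3 :=
      mul_le_mul ha hb (by positivity) (by positivity)
    have h2 : 0 ≤ (m : ℝ) ^ 3 * (n : ℝ) ^ 3 := by positivity
    linarith
  rcases hfam with h2 | ⟨i0, i1, h1⟩ | ⟨j0, hrow⟩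
  · exact mixing22_small_rows_of hm hn r
      (fun s h12 h2 c' g h0 =>
        Vale.Agent.Lib.P328.H30.rows_of_canonical s
          (by
            rw [Fin.sum_univ_three]
            rcases h12 0 with a | a <;> rcases h12 1 with b | b <;> rcases h12 2 with d | d <;>
              omega)
          (fun c6 hc g6 h6 => Vale.Agent.Lib.P328.Small.rows_le_two6 s h12 h2 c6 hc g6 h6)
          c' g h0)
      (Or.inl h2) c x ε hε hε1 t ht'
  · exact mixing22_two_fat_unit hm hn r i0 i1 h1 c x ε hε hε1 t ht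
  · exact mixing22_hub_big_of hm hn
      (fun r' c' j0' h g => threeRow_big_of threeProj_CP r' c' j0' h g)
      r c j0 hrow x ε hε hε1 t ht'

/-- **The row families and the column families.** -/
theorem mixing22_families (m n : ℕ) (hm : 2 ≤ m) (hn : 2 ≤ n) (r : Fin m → ℕ) (c : Fin n → ℕ)
    (hfam :
      ((∀ i, r i ≤ 2) ∨ (∃ i0 i1 : Fin m, ∀ i, i ≠ i0 → i ≠ i1 → r i ≤ 1) ∨
        (∃ j0 : Fin n, ∀ i, r i ≤ 1 ∨ ∑ j ∈ univ.erase j0, c j ≤ r i)) ∨
      ((∀ j, c j ≤ 2) ∨ (∃ j0 j1 : Fin n, ∀ j, j ≠ j0 → j ≠ j1 → c j ≤ 1) ∨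
        (∃ i0 : Fin m, ∀ j, c j ≤ 1 ∨ ∑ i ∈ univ.erase i0, r i ≤ c j)))
    (x : CT m n r c) (ε : ℝ) (hε : 0 < ε) (hε1 : ε ≤ 1) (t : ℕ)
    (ht : 4 * (m : ℝ) ^ 3 * (n : ℝ) ^ 3 *
      (m * n * Real.log (((∑ i, r i : ℕ) : ℝ) + 1) + Real.log (1 / ε)) ≤ t) :
    (1 / 2) * ∑ y, |(heatBath22 m n r c ^ t) x y - 1 / (Fintype.card (CT m n r c) : ℝ)| ≤ ε := by
  rcases hfam with hrow | hcol
  · exact mixing22_row_families m n hm hn r c hrow x ε hε hε1 t ht
  · refine mixing22_of_tr x ε t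
      (mixing22_row_families n m hn hm c r hcol (tr x) ε hε hε1 t ?_)
    rw [← sum_rows_eq_sum_cols x]
    have e : 4 * (n : ℝ) ^ 3 * (m : ℝ) ^ 3 *
        (n * m * Real.log (((∑ i, r i : ℕ) : ℝ) + 1) + Real.log (1 / ε))
        = 4 * (m : ℝ) ^ 3 * (n : ℝ) ^ 3 *
          (m * n * Real.log (((∑ i, r i : ℕ) : ℝ) + 1) + Real.log (1 / ε)) := by ring
    rw [e]
    exact ht

end Vale.Agent.Lib.P328.RP
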