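import Mathlib
import Vale.Agent.Lib.P328.helper12.FatRow

/-!
P328: assembly of the mixing bound for the heat bath on two-by-two blocks for the margins in
which either every row sum is at most two, or at most one row sum exceeds one.

The only input that is not proved in this file is the three-row inequality (row form) for the
triples of row sums with all three entries in `{1, 2}` and at least two entries equal to two;
it enters as the hypothesis `H`.
-/

namespace Vale.Agent.Lib.P328.RP

open Finset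

/-- The three-row inequality in the row form for the `3 × n` tables with row sums `s`, for all
column sums. -/
def RowForm (n : ℕ) (s : Fin 3 → ℕ) : Prop :=
  ∀ (c' : Fin n → ℕ) (g : Fin 3 → (Fin n → ℕ) → ℝ),
    (∀ k, ∑ x : CT 3 n s c', g k (x.1 k) = 0) →
    ∑ x : CT 3 n s c', (∑ k, g k (x.1 k)) ^ 2
      ≤ 2 * ∑ x : CT 3 n s c', ∑ k, g k (x.1 k) ^ 2

/-- The row form for every triple of row sums with all entries at most two, given the row form
for the triples with entries in `{1, 2}` among which no two distinct entries are at most one. -/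
theorem rowForm_of_le_two {n : ℕ}
    (H : ∀ s : Fin 3 → ℕ, (∀ k, s k = 1 ∨ s k = 2) →
      (∀ a b : Fin 3, a ≠ b → 2 ≤ s a ∨ 2 ≤ s b) → RowForm n s)
    (s : Fin 3 → ℕ) (hs : ∀ k, s k ≤ 2) : RowForm n s := by
  intro c' g h0
  by_cases h2 : ∃ a b : Fin 3, a ≠ b ∧ s a ≤ 1 ∧ s b ≤ 1
  · obtain ⟨a, b, hab, ha, hb⟩ := h2
    exact threeRow_rows_of_two_small s c' a b hab ha hb g h0
  · by_cases hz : ∃ k, s k = 0
    · obtain ⟨k, hk⟩ := hz
      exact TwoSmall.rows_of_zero hk g h0
    · have h12 : ∀ k, s k = 1 ∨ s k = 2 := by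
        intro k
        have h1 := hs k
        have h3 : s k ≠ 0 := fun h => hz ⟨k, h⟩
        omega
      refine H s h12 ?_ c' g h0
      intro a b hab
      by_contra hcon
      apply h2
      refine ⟨a, b, hab, ?_, ?_⟩ <;> omega

/-- **All row sums at most two, or at most one row sum above one.**  The mixing bound for the
heat bath on two-by-two blocks, given the three-row inequality for the triples of row sums in
`{1, 2}` with at least two entries equal to two. -/
theorem mixing22_small_rows_of {m n : ℕ} (hm : 2 ≤ m) (hn : 2 ≤ n) (r : Fin m → ℕ)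
    (H : ∀ s : Fin 3 → ℕ, (∀ k, s k = 1 ∨ s k = 2) →
      (∀ a b : Fin 3, a ≠ b → 2 ≤ s a ∨ 2 ≤ s b) → RowForm n s)
    (hfam : (∀ i, r i ≤ 2) ∨ ∃ i0 : Fin m, ∀ i, i ≠ i0 → r i ≤ 1)
    (c : Fin n → ℕ) (x : CT m n r c) (ε : ℝ) (hε : 0 < ε) (hε1 : ε ≤ 1) (t : ℕ)
    (ht : (m : ℝ) ^ 2 * (n : ℝ) ^ 2 *
      (m * n * Real.log (((∑ i, r i : ℕ) : ℝ) + 1) + Real.log (1 / ε)) ≤ t) :
    (1 / 2) * ∑ y, |(heatBath22 m n r c ^ t) x y - 1 / (Fintype.card (CT m n r c) : ℝ)|
      ≤ ε := by
  rcases hfam with h2 | ⟨i0, h1⟩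
  · refine mixing22_of_threeRow_fat hm hn r (fun φ => Or.inr ?_) c x ε hε hε1 t ht
    exact rowForm_of_le_two H (r ∘ φ) (fun k => h2 (φ k))
  · exact mixing22_one_fat_row hm hn r i0 h1 c x ε hε hε1 t ht

end Vale.Agent.Lib.P328.RP
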